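import Vale.Agent.P237.Quant.TailSmallData.P11BPart0
import Vale.Agent.P237.Quant.TailSmallData.P11BPart1
import Vale.Agent.P237.Quant.TailSmallData.P11BPart2

/-!
Tail calibration tailP11B in dimension 11. Generated data, checked by the kernel.
-/

set_option maxRecDepth 100000
set_option linter.all false

namespace Vale.Agent.P237.Quant.TailData

open TailCert

/-- The calibration. -/
noncomputable def tailP11B : Cfg :=
  tailP11BBase.withIvals (List.flatten [tailP11BL0, tailP11BL1, tailP11BL2, tailP11BL3, tailP11BL4, tailP11BL5, tailP11BL6, tailP11BL7, tailP11BL8, tailP11BL9, tailP11BL10, tailP11BL11, tailP11BL12, tailP11BL13, tailP11BL14, tailP11BL15, tailP11BL16])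

theorem tailP11B_parts : [tailP11BL0, tailP11BL1, tailP11BL2, tailP11BL3, tailP11BL4, tailP11BL5, tailP11BL6, tailP11BL7, tailP11BL8, tailP11BL9, tailP11BL10, tailP11BL11, tailP11BL12, tailP11BL13, tailP11BL14, tailP11BL15, tailP11BL16].Forall fun l => tailP11BBase.partOK l = true := by
  simp only [List.forall_cons, List.Forall]
  exact ⟨tailP11BL0_ok, tailP11BL1_ok, tailP11BL2_ok, tailP11BL3_ok, tailP11BL4_ok, tailP11BL5_ok, tailP11BL6_ok, tailP11BL7_ok, tailP11BL8_ok, tailP11BL9_ok, tailP11BL10_ok, tailP11BL11_ok, tailP11BL12_ok, tailP11BL13_ok, tailP11BL14_ok, tailP11BL15_ok, tailP11BL16_ok⟩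

theorem tailP11B_check : tailP11B.check = true :=
  Cfg.check_of_okParts (by decide +kernel) tailP11B_parts

end Vale.Agent.P237.Quant.TailData
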