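import Vale.Agent.P237.Quant.TailSmallData.P13APart0
import Vale.Agent.P237.Quant.TailSmallData.P13APart1
import Vale.Agent.P237.Quant.TailSmallData.P13APart2

/-!
Tail calibration tailP13A in dimension 13. Generated data, checked by the kernel.
-/

set_option maxRecDepth 100000
set_option linter.all false

namespace Vale.Agent.P237.Quant.TailData

open TailCert

/-- The calibration. -/
noncomputable def tailP13A : Cfg :=
  tailP13ABase.withIvals (List.flatten [tailP13AL0, tailP13AL1, tailP13AL2, tailP13AL3, tailP13AL4, tailP13AL5, tailP13AL6, tailP13AL7, tailP13AL8, tailP13AL9, tailP13AL10, tailP13AL11, tailP13AL12, tailP13AL13])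

theorem tailP13A_parts : [tailP13AL0, tailP13AL1, tailP13AL2, tailP13AL3, tailP13AL4, tailP13AL5, tailP13AL6, tailP13AL7, tailP13AL8, tailP13AL9, tailP13AL10, tailP13AL11, tailP13AL12, tailP13AL13].Forall fun l => tailP13ABase.partOK l = true := by
  simp only [List.forall_cons, List.Forall]
  exact ⟨tailP13AL0_ok, tailP13AL1_ok, tailP13AL2_ok, tailP13AL3_ok, tailP13AL4_ok, tailP13AL5_ok, tailP13AL6_ok, tailP13AL7_ok, tailP13AL8_ok, tailP13AL9_ok, tailP13AL10_ok, tailP13AL11_ok, tailP13AL12_ok, tailP13AL13_ok⟩

theorem tailP13A_check : tailP13A.check = true :=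
  Cfg.check_of_okParts (by decide +kernel) tailP13A_parts

end Vale.Agent.P237.Quant.TailData
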