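import Vale.Agent.P237.Quant.TailSmallData.P13BPart0
import Vale.Agent.P237.Quant.TailSmallData.P13BPart1
import Vale.Agent.P237.Quant.TailSmallData.P13BPart2
import Vale.Agent.P237.Quant.TailSmallData.P13BPart3

/-!
Tail calibration tailP13B in dimension 13. Generated data, checked by the kernel.
-/

set_option maxRecDepth 100000
set_option linter.all false

namespace Vale.Agent.P237.Quant.TailData

open TailCert

/-- The calibration. -/
noncomputable def tailP13B : Cfg :=
  tailP13BBase.withIvals (List.flatten [tailP13BL0, tailP13BL1, tailP13BL2, tailP13BL3, tailP13BL4, tailP13BL5, tailP13BL6, tailP13BL7, tailP13BL8, tailP13BL9, tailP13BL10, tailP13BL11, tailP13BL12, tailP13BL13, tailP13BL14, tailP13BL15, tailP13BL16, tailP13BL17, tailP13BL18])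

theorem tailP13B_parts : [tailP13BL0, tailP13BL1, tailP13BL2, tailP13BL3, tailP13BL4, tailP13BL5, tailP13BL6, tailP13BL7, tailP13BL8, tailP13BL9, tailP13BL10, tailP13BL11, tailP13BL12, tailP13BL13, tailP13BL14, tailP13BL15, tailP13BL16, tailP13BL17, tailP13BL18].Forall fun l => tailP13BBase.partOK l = true := by
  simp only [List.forall_cons, List.Forall]
  exact ⟨tailP13BL0_ok, tailP13BL1_ok, tailP13BL2_ok, tailP13BL3_ok, tailP13BL4_ok, tailP13BL5_ok, tailP13BL6_ok, tailP13BL7_ok, tailP13BL8_ok, tailP13BL9_ok, tailP13BL10_ok, tailP13BL11_ok, tailP13BL12_ok, tailP13BL13_ok, tailP13BL14_ok, tailP13BL15_ok, tailP13BL16_ok, tailP13BL17_ok, tailP13BL18_ok⟩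

theorem tailP13B_check : tailP13B.check = true :=
  Cfg.check_of_okParts (by decide +kernel) tailP13B_parts

end Vale.Agent.P237.Quant.TailData
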