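import Vale.Agent.P237.Quant.TailSmallData.N10BPart0
import Vale.Agent.P237.Quant.TailSmallData.N10BPart1
import Vale.Agent.P237.Quant.TailSmallData.N10BPart2
import Vale.Agent.P237.Quant.TailSmallData.N10BPart3

/-!
Tail calibration tailN10B in dimension 10. Generated data, checked by the kernel.
-/

set_option maxRecDepth 100000
set_option linter.all false

namespace Vale.Agent.P237.Quant.TailData

open TailCert

/-- The calibration. -/
noncomputable def tailN10B : Cfg :=
  tailN10BBase.withIvals (List.flatten [tailN10BL0, tailN10BL1, tailN10BL2, tailN10BL3, tailN10BL4, tailN10BL5, tailN10BL6, tailN10BL7, tailN10BL8, tailN10BL9, tailN10BL10, tailN10BL11, tailN10BL12, tailN10BL13, tailN10BL14, tailN10BL15, tailN10BL16, tailN10BL17, tailN10BL18, tailN10BL19])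

theorem tailN10B_parts : [tailN10BL0, tailN10BL1, tailN10BL2, tailN10BL3, tailN10BL4, tailN10BL5, tailN10BL6, tailN10BL7, tailN10BL8, tailN10BL9, tailN10BL10, tailN10BL11, tailN10BL12, tailN10BL13, tailN10BL14, tailN10BL15, tailN10BL16, tailN10BL17, tailN10BL18, tailN10BL19].Forall fun l => tailN10BBase.partOK l = true := by
  simp only [List.forall_cons, List.Forall]
  exact ⟨tailN10BL0_ok, tailN10BL1_ok, tailN10BL2_ok, tailN10BL3_ok, tailN10BL4_ok, tailN10BL5_ok, tailN10BL6_ok, tailN10BL7_ok, tailN10BL8_ok, tailN10BL9_ok, tailN10BL10_ok, tailN10BL11_ok, tailN10BL12_ok, tailN10BL13_ok, tailN10BL14_ok, tailN10BL15_ok, tailN10BL16_ok, tailN10BL17_ok, tailN10BL18_ok, tailN10BL19_ok⟩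

theorem tailN10B_check : tailN10B.check = true :=
  Cfg.check_of_okParts (by decide +kernel) tailN10B_parts

end Vale.Agent.P237.Quant.TailData
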