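import Vale.Agent.P237.Quant.TailSmallData.N9BPart0
import Vale.Agent.P237.Quant.TailSmallData.N9BPart1
import Vale.Agent.P237.Quant.TailSmallData.N9BPart2

/-!
Tail calibration tailN9B in dimension 9. Generated data, checked by the kernel.
-/

set_option maxRecDepth 100000
set_option linter.all false

namespace Vale.Agent.P237.Quant.TailData

open TailCert

/-- The calibration. -/
noncomputable def tailN9B : Cfg :=
  tailN9BBase.withIvals (List.flatten [tailN9BL0, tailN9BL1, tailN9BL2, tailN9BL3, tailN9BL4, tailN9BL5, tailN9BL6, tailN9BL7, tailN9BL8, tailN9BL9, tailN9BL10, tailN9BL11, tailN9BL12, tailN9BL13, tailN9BL14, tailN9BL15, tailN9BL16, tailN9BL17])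

theorem tailN9B_parts : [tailN9BL0, tailN9BL1, tailN9BL2, tailN9BL3, tailN9BL4, tailN9BL5, tailN9BL6, tailN9BL7, tailN9BL8, tailN9BL9, tailN9BL10, tailN9BL11, tailN9BL12, tailN9BL13, tailN9BL14, tailN9BL15, tailN9BL16, tailN9BL17].Forall fun l => tailN9BBase.partOK l = true := by
  simp only [List.forall_cons, List.Forall]
  exact ⟨tailN9BL0_ok, tailN9BL1_ok, tailN9BL2_ok, tailN9BL3_ok, tailN9BL4_ok, tailN9BL5_ok, tailN9BL6_ok, tailN9BL7_ok, tailN9BL8_ok, tailN9BL9_ok, tailN9BL10_ok, tailN9BL11_ok, tailN9BL12_ok, tailN9BL13_ok, tailN9BL14_ok, tailN9BL15_ok, tailN9BL16_ok, tailN9BL17_ok⟩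

theorem tailN9B_check : tailN9B.check = true :=
  Cfg.check_of_okParts (by decide +kernel) tailN9B_parts

end Vale.Agent.P237.Quant.TailData
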