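import Vale.Agent.P237.Quant.TailSmallData.P10APart0
import Vale.Agent.P237.Quant.TailSmallData.P10APart1
import Vale.Agent.P237.Quant.TailSmallData.P10APart2

/-!
Tail calibration tailP10A in dimension 10. Generated data, checked by the kernel.
-/

set_option maxRecDepth 100000
set_option linter.all false

namespace Vale.Agent.P237.Quant.TailData

open TailCert

/-- The calibration. -/
noncomputable def tailP10A : Cfg :=
  tailP10ABase.withIvals (List.flatten [tailP10AL0, tailP10AL1, tailP10AL2, tailP10AL3, tailP10AL4, tailP10AL5, tailP10AL6, tailP10AL7, tailP10AL8, tailP10AL9, tailP10AL10, tailP10AL11, tailP10AL12, tailP10AL13])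

theorem tailP10A_parts : [tailP10AL0, tailP10AL1, tailP10AL2, tailP10AL3, tailP10AL4, tailP10AL5, tailP10AL6, tailP10AL7, tailP10AL8, tailP10AL9, tailP10AL10, tailP10AL11, tailP10AL12, tailP10AL13].Forall fun l => tailP10ABase.partOK l = true := by
  simp only [List.forall_cons, List.Forall]
  exact ⟨tailP10AL0_ok, tailP10AL1_ok, tailP10AL2_ok, tailP10AL3_ok, tailP10AL4_ok, tailP10AL5_ok, tailP10AL6_ok, tailP10AL7_ok, tailP10AL8_ok, tailP10AL9_ok, tailP10AL10_ok, tailP10AL11_ok, tailP10AL12_ok, tailP10AL13_ok⟩

theorem tailP10A_check : tailP10A.check = true :=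
  Cfg.check_of_okParts (by decide +kernel) tailP10A_parts

end Vale.Agent.P237.Quant.TailData
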