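import Vale.Agent.P237.Quant.TailSmallData.P10BPart0
import Vale.Agent.P237.Quant.TailSmallData.P10BPart1
import Vale.Agent.P237.Quant.TailSmallData.P10BPart2
import Vale.Agent.P237.Quant.TailSmallData.P10BPart3

/-!
Tail calibration tailP10B in dimension 10. Generated data, checked by the kernel.
-/

set_option maxRecDepth 100000
set_option linter.all false

namespace Vale.Agent.P237.Quant.TailData

open TailCert

/-- The calibration. -/
noncomputable def tailP10B : Cfg :=
  tailP10BBase.withIvals (List.flatten [tailP10BL0, tailP10BL1, tailP10BL2, tailP10BL3, tailP10BL4, tailP10BL5, tailP10BL6, tailP10BL7, tailP10BL8, tailP10BL9, tailP10BL10, tailP10BL11, tailP10BL12, tailP10BL13, tailP10BL14, tailP10BL15, tailP10BL16, tailP10BL17, tailP10BL18, tailP10BL19, tailP10BL20])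

theorem tailP10B_parts : [tailP10BL0, tailP10BL1, tailP10BL2, tailP10BL3, tailP10BL4, tailP10BL5, tailP10BL6, tailP10BL7, tailP10BL8, tailP10BL9, tailP10BL10, tailP10BL11, tailP10BL12, tailP10BL13, tailP10BL14, tailP10BL15, tailP10BL16, tailP10BL17, tailP10BL18, tailP10BL19, tailP10BL20].Forall fun l => tailP10BBase.partOK l = true := by
  simp only [List.forall_cons, List.Forall]
  exact ⟨tailP10BL0_ok, tailP10BL1_ok, tailP10BL2_ok, tailP10BL3_ok, tailP10BL4_ok, tailP10BL5_ok, tailP10BL6_ok, tailP10BL7_ok, tailP10BL8_ok, tailP10BL9_ok, tailP10BL10_ok, tailP10BL11_ok, tailP10BL12_ok, tailP10BL13_ok, tailP10BL14_ok, tailP10BL15_ok, tailP10BL16_ok, tailP10BL17_ok, tailP10BL18_ok, tailP10BL19_ok, tailP10BL20_ok⟩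

theorem tailP10B_check : tailP10B.check = true :=
  Cfg.check_of_okParts (by decide +kernel) tailP10B_parts

end Vale.Agent.P237.Quant.TailData
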