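import Vale.Agent.P237.Quant.TailSmallData.P7Part0
import Vale.Agent.P237.Quant.TailSmallData.P7Part1

/-!
Tail calibration tailP7 in dimension 7. Generated data, checked by the kernel.
-/

set_option maxRecDepth 100000
set_option linter.all false

namespace Vale.Agent.P237.Quant.TailData

open TailCert

/-- The calibration. -/
noncomputable def tailP7 : Cfg :=
  tailP7Base.withIvals (List.flatten [tailP7L0, tailP7L1, tailP7L2, tailP7L3, tailP7L4, tailP7L5, tailP7L6, tailP7L7, tailP7L8, tailP7L9, tailP7L10])

theorem tailP7_parts : [tailP7L0, tailP7L1, tailP7L2, tailP7L3, tailP7L4, tailP7L5, tailP7L6, tailP7L7, tailP7L8, tailP7L9, tailP7L10].Forall fun l => tailP7Base.partOK l = true := by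
  simp only [List.forall_cons, List.Forall]
  exact ⟨tailP7L0_ok, tailP7L1_ok, tailP7L2_ok, tailP7L3_ok, tailP7L4_ok, tailP7L5_ok, tailP7L6_ok, tailP7L7_ok, tailP7L8_ok, tailP7L9_ok, tailP7L10_ok⟩

theorem tailP7_check : tailP7.check = true :=
  Cfg.check_of_okParts (by decide +kernel) tailP7_parts

end Vale.Agent.P237.Quant.TailData
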