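import Vale.Agent.P237.Quant.TailSmallData.P9BPart0
import Vale.Agent.P237.Quant.TailSmallData.P9BPart1
import Vale.Agent.P237.Quant.TailSmallData.P9BPart2

/-!
Tail calibration tailP9B in dimension 9. Generated data, checked by the kernel.
-/

set_option maxRecDepth 100000
set_option linter.all false

namespace Vale.Agent.P237.Quant.TailData

open TailCert

/-- The calibration. -/
noncomputable def tailP9B : Cfg :=
  tailP9BBase.withIvals (List.flatten [tailP9BL0, tailP9BL1, tailP9BL2, tailP9BL3, tailP9BL4, tailP9BL5, tailP9BL6, tailP9BL7, tailP9BL8, tailP9BL9, tailP9BL10, tailP9BL11, tailP9BL12, tailP9BL13, tailP9BL14, tailP9BL15])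

theorem tailP9B_parts : [tailP9BL0, tailP9BL1, tailP9BL2, tailP9BL3, tailP9BL4, tailP9BL5, tailP9BL6, tailP9BL7, tailP9BL8, tailP9BL9, tailP9BL10, tailP9BL11, tailP9BL12, tailP9BL13, tailP9BL14, tailP9BL15].Forall fun l => tailP9BBase.partOK l = true := by
  simp only [List.forall_cons, List.Forall]
  exact ⟨tailP9BL0_ok, tailP9BL1_ok, tailP9BL2_ok, tailP9BL3_ok, tailP9BL4_ok, tailP9BL5_ok, tailP9BL6_ok, tailP9BL7_ok, tailP9BL8_ok, tailP9BL9_ok, tailP9BL10_ok, tailP9BL11_ok, tailP9BL12_ok, tailP9BL13_ok, tailP9BL14_ok, tailP9BL15_ok⟩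

theorem tailP9B_check : tailP9B.check = true :=
  Cfg.check_of_okParts (by decide +kernel) tailP9B_parts

end Vale.Agent.P237.Quant.TailData
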