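import Vale.Agent.P237.Quant.TailSmallData.N12BPart0
import Vale.Agent.P237.Quant.TailSmallData.N12BPart1
import Vale.Agent.P237.Quant.TailSmallData.N12BPart2

/-!
Tail calibration tailN12B in dimension 12. Generated data, checked by the kernel.
-/

set_option maxRecDepth 100000
set_option linter.all false

namespace Vale.Agent.P237.Quant.TailData

open TailCert

/-- The calibration. -/
noncomputable def tailN12B : Cfg :=
  tailN12BBase.withIvals (List.flatten [tailN12BL0, tailN12BL1, tailN12BL2, tailN12BL3, tailN12BL4, tailN12BL5, tailN12BL6, tailN12BL7, tailN12BL8, tailN12BL9, tailN12BL10, tailN12BL11, tailN12BL12, tailN12BL13, tailN12BL14])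

theorem tailN12B_parts : [tailN12BL0, tailN12BL1, tailN12BL2, tailN12BL3, tailN12BL4, tailN12BL5, tailN12BL6, tailN12BL7, tailN12BL8, tailN12BL9, tailN12BL10, tailN12BL11, tailN12BL12, tailN12BL13, tailN12BL14].Forall fun l => tailN12BBase.partOK l = true := by
  simp only [List.forall_cons, List.Forall]
  exact ⟨tailN12BL0_ok, tailN12BL1_ok, tailN12BL2_ok, tailN12BL3_ok, tailN12BL4_ok, tailN12BL5_ok, tailN12BL6_ok, tailN12BL7_ok, tailN12BL8_ok, tailN12BL9_ok, tailN12BL10_ok, tailN12BL11_ok, tailN12BL12_ok, tailN12BL13_ok, tailN12BL14_ok⟩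

theorem tailN12B_check : tailN12B.check = true :=
  Cfg.check_of_okParts (by decide +kernel) tailN12B_parts

end Vale.Agent.P237.Quant.TailData
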